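import Vale.Agent.P085Z.Main
import Vale.Agent.P085Z.Bicomm

set_option autoImplicit false

open scoped InnerProductSpace

namespace Vale.Agent.Results.P085.AllVonNeumann

open Vale.Agent.P085 Vale.Agent.P085Z

/-- Let `M` be a von Neumann algebra on a complex Hilbert space `H` (a unital star subalgebra of
`B(H)` that is closed in the weak operator topology) with separable predual: either `H` is
separable, or the predual of `M`, the norm closure in the dual space of `M` of the linear span of
the vector functionals `x ↦ ⟪ξ, x η⟫`, is norm separable. Then `M` is singly generated: there is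
`x ∈ M` such that every weakly closed unital star subalgebra of `B(H)` containing `x`
contains `M`. -/
theorem result {H : Type*} [NormedAddCommGroup H] [InnerProductSpace ℂ H] [CompleteSpace H]
    (M : StarSubalgebra ℂ (H →L[ℂ] H)) (hM : IsClosed {T : H →WOT[ℂ] H | T.toCLM ∈ M})
    (hsep : TopologicalSpace.SeparableSpace H ∨
      TopologicalSpace.IsSeparable (closure (Submodule.span ℂ
        {f : StrongDual ℂ M | ∃ ξ η : H, ∀ x : M, f x = ⟪ξ, (x : H →L[ℂ] H) η⟫_ℂ} :
          Set (StrongDual ℂ M)))) :
    ∃ x ∈ M, ∀ N : StarSubalgebra ℂ (H →L[ℂ] H),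
      IsClosed {T : H →WOT[ℂ] H | T.toCLM ∈ N} → x ∈ N → M ≤ N := by
  have hs : WSep (ofClosed M hM) := by
    rcases hsep with h | h
    · exact wsep_of_separable _
    · have h' : TopologicalSpace.IsSeparable
          {f : StrongDual ℂ M | ∃ ξ η : H, ∀ x : M, f x = ⟪ξ, (x : H →L[ℂ] H) η⟫_ℂ} :=
        h.mono (Submodule.subset_span.trans subset_closure)
      exact wsep_of_isSeparable (ofClosed M hM) h'
  obtain ⟨x, hx, h⟩ := isSinglyGenerated_of_wsep hs
  refine ⟨x, hx rfl, fun N hN hxN => ?_⟩
  exact h (ofClosed N hN) (by rintro y rfl; exact hxN)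

end Vale.Agent.Results.P085.AllVonNeumann
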